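import Vale.Agent.P240.MathlibUsed

namespace Vale.Agent.P240

/-- The poset `𝒜ₚ(G)` of nontrivial elementary abelian `p`-subgroups, ordered by inclusion. -/
abbrev Ap (p : ℕ) (G : Type*) [Group G] : Type _ :=
  {E : Subgroup G // E ≠ ⊥ ∧ (∀ x ∈ E, ∀ y ∈ E, x * y = y * x) ∧ ∀ x ∈ E, x ^ p = 1}

/-- `Oₚ(G) = 1`: the only normal `p`-subgroup of `G` is the trivial one. -/
def OpTrivial (p : ℕ) (G : Type*) [Group G] : Prop :=
  ∀ N : Subgroup G, N.Normal → IsPGroup p N → N = ⊥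

end Vale.Agent.P240
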