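import Mathlib.Algebra.AffineMonoid.Basic
import Mathlib.Algebra.Module.StablyFree.Basic
import Mathlib.Algebra.Order.Ring.Star
import Mathlib.Algebra.Ring.IsFormallyReal
import Mathlib.Data.Finsupp.Pointwise
import Mathlib.Data.Int.Star
import Mathlib.Data.Set.Finite.List
import Mathlib.GroupTheory.IndexNormal
import Mathlib.GroupTheory.NoncommCoprod
import Mathlib.GroupTheory.SpecificGroups.ZGroup
import Mathlib.Order.CompletePartialOrder
import Mathlib.RingTheory.Flat.TorsionFree
import Mathlib.RingTheory.Henselian
import Mathlib.RingTheory.PicardGroup
import Mathlib.RingTheory.RegularLocalRing.Defs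
import Mathlib.RingTheory.RootsOfUnity.AlgebraicallyClosed
import Mathlib.RingTheory.SimpleRing.Principal
import Mathlib.Tactic

/-! The part of Mathlib that the development of this folder uses. -/
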